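import Mathlib
import Vale.Agent.Lib.P243.CapMain
import Vale.Agent.Lib.P243.R3.Defs
open MeasureTheory Set Vale.Agent.Lib.P243

/-!
# P243-R3, J11 (helper5, pool job 266): lateral boundary points give a gain point

Model setting `K ⊆ ℝ × (ℝ × ℝ)` compact convex; a frontier point `(ζ, ξ)` whose fibre contains
points strictly below and strictly above it, and which is joined to the lower end `(z0, o)` of
the chord by a segment through the interior, yields a point `y` of the projection and a height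
`t < len K y` that is not explained by the cone over the chord.
-/

namespace Vale.Agent.Lib.P243.R3

set_option linter.unusedVariables false in
theorem M3c_lateral {K : Set (ℝ × (ℝ × ℝ))} (hK : IsCompact K) (hc : Convex ℝ K)
    {z0 l : ℝ} {o : ℝ × ℝ} (hl : 0 < l) (h0 : (z0, o) ∈ K) (h1 : (z0 + l, o) ∈ K)
    {ζ ζ1 ζ2 : ℝ} {ξ : ℝ × ℝ} (hx : (ζ, ξ) ∈ frontier K) (hζ1 : ζ1 < ζ) (hx1 : (ζ1, ξ) ∈ K)
    (hζ2 : ζ < ζ2) (hx2 : (ζ2, ξ) ∈ K)
    {s : ℝ} (hs0 : 0 ≤ s) (hs1 : s ≤ 1)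
    (hw : (1 - s) • ((z0, o) : ℝ × (ℝ × ℝ)) + s • ((ζ, ξ) : ℝ × (ℝ × ℝ)) ∈ interior K) :
    ∃ y ∈ Prod.snd '' K, ∃ t : ℝ, 0 < t ∧ t < Cap.len K y ∧
      (l ≤ t ∨ ∀ q ∈ Prod.snd '' K, y ≠ o + (1 - t / l) • (q - o)) := by
  have hxni : ((ζ, ξ) : ℝ × (ℝ × ℝ)) ∉ interior K := hx.2
  obtain ⟨n, hn⟩ := geometric_hahn_banach_open_point hc.interior isOpen_interior hxni
  have hne : (interior K).Nonempty := ⟨_, hw⟩
  have hle : ∀ k ∈ K, n k ≤ n (ζ, ξ) := by
    intro k hk
    have hk' : k ∈ closure (interior K) := by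
      rw [hc.closure_interior_eq_closure_of_nonempty_interior hne]
      exact subset_closure hk
    have hcl : IsClosed {k : ℝ × (ℝ × ℝ) | n k ≤ n (ζ, ξ)} :=
      isClosed_le n.continuous continuous_const
    exact closure_minimal (fun a ha => (hn a ha).le) hcl hk'
  -- the functional does not depend on the height
  have hdecomp : ∀ (z : ℝ) (q : ℝ × ℝ), n (z, q) = z * n (1, 0) + n (0, q) := by
    intro z q
    have e : ((z, q) : ℝ × (ℝ × ℝ)) = z • ((1, 0) : ℝ × (ℝ × ℝ)) + (0, q) := by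
      ext <;> simp
    rw [e, map_add, map_smul, smul_eq_mul]
  have h1' := hle _ hx1
  have h2' := hle _ hx2
  rw [hdecomp ζ1 ξ, hdecomp ζ ξ] at h1'
  rw [hdecomp ζ2 ξ, hdecomp ζ ξ] at h2'
  have hc0 : n (1, 0) = 0 := by
    have ha : 0 ≤ n (1, 0) := by
      have h3 : 0 ≤ (ζ - ζ1) * n (1, 0) := by linarith
      exact nonneg_of_mul_nonneg_right h3 (sub_pos.mpr hζ1)
    have hb : n (1, 0) ≤ 0 := by
      have h3 : (ζ2 - ζ) * n (1, 0) ≤ 0 := by linarith
      exact nonpos_of_mul_nonpos_right h3 (sub_pos.mpr hζ2)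
    linarith
  have hν : ∀ (z : ℝ) (q : ℝ × ℝ), n (z, q) = n (0, q) := by
    intro z q
    rw [hdecomp, hc0]
    ring
  -- the projected functional
  obtain ⟨ν, hνdef⟩ : ∃ ν : (ℝ × ℝ) →L[ℝ] ℝ, ∀ q, ν q = n (0, q) :=
    ⟨n.comp (ContinuousLinearMap.inr ℝ ℝ (ℝ × ℝ)), fun q => rfl⟩
  have hνle : ∀ q ∈ Prod.snd '' K, ν q ≤ ν ξ := by
    rintro q ⟨k, hk, rfl⟩
    have h3 := hle k hk
    rw [show k = (k.1, k.2) from rfl, hν k.1 k.2, hν ζ ξ] at h3
    rw [hνdef, hνdef]
    exact h3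
  have hoξ : ν o < ν ξ := by
    have hw' := hn _ hw
    rw [map_add, map_smul, map_smul, smul_eq_mul, smul_eq_mul, hν z0 o, hν ζ ξ] at hw'
    rw [hνdef, hνdef]
    by_contra hcon
    rw [not_lt] at hcon
    nlinarith
  -- the fibre over ξ is long
  have hξP : ξ ∈ Prod.snd '' K := ⟨(ζ1, ξ), hx1, rfl⟩
  have hpos : 0 < ζ2 - ζ1 := by linarith
  have hlen : ζ2 - ζ1 ≤ Cap.len K ξ := by
    have hsub : Icc ζ1 ζ2 ⊆ Cap.fib K ξ := by
      intro z hz
      show (z, ξ) ∈ K
      have key := hc hx1 hx2 (div_nonneg (sub_nonneg.mpr hz.2) hpos.le)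
        (div_nonneg (sub_nonneg.mpr hz.1) hpos.le) (by field_simp; ring)
      convert key using 1
      ext
      · simp
        field_simp
        ring
      · simp
        field_simp
        ring
      · simp
        field_simp
        ring
    have h3 := ENNReal.toReal_mono (Cap.fib_fin hK ξ) (measure_mono (μ := volume) hsub)
    rw [Real.volume_Icc, ENNReal.toReal_ofReal hpos.le] at h3
    exact h3
  have hlenpos : 0 < Cap.len K ξ := by linarith
  have hmin : 0 < min (Cap.len K ξ) l := lt_min hlenpos hl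
  refine ⟨ξ, hξP, min (Cap.len K ξ) l / 2, by linarith, ?_, Or.inr ?_⟩
  · have := min_le_left (Cap.len K ξ) l
    linarith
  · intro q hq heq
    have hμ1 : min (Cap.len K ξ) l / 2 / l ≤ 1 / 2 := by
      rw [div_le_iff₀ hl]
      have := min_le_right (Cap.len K ξ) l
      linarith
    have hμ0 : 0 < min (Cap.len K ξ) l / 2 / l := by positivity
    have h4 := congrArg ν heq
    rw [map_add, map_smul, map_sub, smul_eq_mul] at h4
    have h5 := hνle q hq
    nlinarith

end Vale.Agent.Lib.P243.R3
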